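import Vale.Agent.P181.WC.H353.Contr

/-!
# P181, line WC, [C1]: the Capelli step for one column (helper353)
-/

set_option autoImplicit false

open Finset

namespace Vale.Agent.P181.WC.H353

variable {P : Type} [Fintype P] [DecidableEq P]

omit [Fintype P] in
theorem extend_cons {r : ℕ} {p : Fin r → P} {x : P} (hp : Function.Injective p)
    (hq : Function.Injective (Fin.cons x p : Fin (r + 1) → P)) (g : Fin (r + 1) → ℕ) (w : P → ℕ) :
    Function.extend (Fin.cons x p : Fin (r + 1) → P) g w =
      Function.update (Function.extend p (fun i => g i.succ) w) x (g 0) := by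
  funext y
  by_cases h : y = x
  · subst h
    have h1 := hq.extend_apply g w 0
    rw [Fin.cons_zero] at h1
    rw [h1, Function.update_self]
  · rw [Function.update_of_ne h]
    by_cases hy : ∃ i, p i = y
    · obtain ⟨i, rfl⟩ := hy
      have h1 := hq.extend_apply g w i.succ
      rw [Fin.cons_succ] at h1
      rw [h1, hp.extend_apply]
    · rw [Function.extend_apply' _ _ _ hy, Function.extend_apply']
      rintro ⟨i, hi⟩
      induction i using Fin.cases with
      | zero => exact h hi.symm
      | succ i => exact hy ⟨i, hi⟩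

/-- The alternating sum over the letters `c, …, c + r - 1`. -/
def G (S : Finset P) (f : (P → ℕ) → ℂ) (r c : ℕ) : Prop :=
  ∀ p : Fin r → P, Function.Injective p → (∀ i, p i ∈ S) → ∀ w : P → ℕ,
    ∑ σ : Equiv.Perm (Fin r), ((Equiv.Perm.sign σ : ℤ) : ℂ) *
      f (Function.extend p (fun i => c + ((σ i : Fin r) : ℕ)) w) = 0

omit [Fintype P] in
theorem step {S : Finset P} {μ : ℕ → ℕ} {f : (P → ℕ) → ℂ} (hf : HWw S μ f) {r c : ℕ}
    (hc : 0 < μ c) (hG : G S f (r + 1) c) : G S f r (c + 1) := by
  intro p hp hS w
  by_contra hne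
  -- the number of free positions with letter `c`
  obtain ⟨e0, _, he0⟩ := Finset.exists_ne_zero_of_sum_ne_zero hne
  have hcard := card_free hf hp hS _ w (right_ne_zero_of_mul he0) c
  have hz : (univ.filter (fun i : Fin r => c + 1 + ((e0 i : Fin r) : ℕ) = c)).card = 0 := by
    rw [Finset.card_eq_zero, Finset.filter_eq_empty_iff]
    intro i _ h
    omega
  rw [hz, add_zero] at hcard
  set T := (S.filter (fun x => ∀ i, p i ≠ x)).filter (fun x => w x = c) with hT
  -- the sum over the free positions
  have hmain : ∑ x ∈ T, ∑ σ : Equiv.Perm (Fin (r + 1)), ((Equiv.Perm.sign σ : ℤ) : ℂ) *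
      f (Function.extend (Fin.cons x p : Fin (r + 1) → P)
        (fun i => c + ((σ i : Fin (r + 1)) : ℕ)) w) = 0 := by
    refine Finset.sum_eq_zero fun x hx => hG _ ?_ ?_ w
    · rw [Fin.cons_injective_iff]
      exact ⟨fun ⟨i, hi⟩ => (Finset.mem_filter.1 (Finset.mem_filter.1 hx).1).2 i hi, hp⟩
    · intro i
      induction i using Fin.cases with
      | zero => exact (Finset.mem_filter.1 (Finset.mem_filter.1 hx).1).1
      | succ i => exact hS i
  rw [Finset.sum_comm, ← Equiv.Perm.decomposeFin.symm.sum_comp, Fintype.sum_prod_type,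
    Fin.sum_univ_succ] at hmain
  -- the word
  have hword : ∀ (k : Fin (r + 1)) (e : Equiv.Perm (Fin r)) (x : P), x ∈ T →
      Function.extend (Fin.cons x p : Fin (r + 1) → P)
        (fun i => c + ((Equiv.Perm.decomposeFin.symm (k, e) i : Fin (r + 1)) : ℕ)) w =
      Function.update (Function.extend p
        (fun i => c + ((Equiv.swap 0 k (e i).succ : Fin (r + 1)) : ℕ)) w) x (c + (k : ℕ)) := by
    intro k e x hx
    rw [extend_cons hp]
    · simp only [Equiv.Perm.decomposeFin_symm_apply_zero,
        Equiv.Perm.decomposeFin_symm_apply_succ]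
    · rw [Fin.cons_injective_iff]
      exact ⟨fun ⟨i, hi⟩ => (Finset.mem_filter.1 (Finset.mem_filter.1 hx).1).2 i hi, hp⟩
  have h0 : ∑ e : Equiv.Perm (Fin r), ∑ x ∈ T,
      ((Equiv.Perm.sign (Equiv.Perm.decomposeFin.symm ((0 : Fin (r + 1)), e)) : ℤ) : ℂ) *
      f (Function.extend (Fin.cons x p : Fin (r + 1) → P)
        (fun i => c + ((Equiv.Perm.decomposeFin.symm ((0 : Fin (r + 1)), e) i :
          Fin (r + 1)) : ℕ)) w) =
      (T.card : ℂ) * ∑ e : Equiv.Perm (Fin r), ((Equiv.Perm.sign e : ℤ) : ℂ) *
        f (Function.extend p (fun i => c + 1 + ((e i : Fin r) : ℕ)) w) := by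
    rw [Finset.mul_sum]
    refine Finset.sum_congr rfl fun e _ => ?_
    rw [Finset.sum_congr rfl (g := fun _ => ((Equiv.Perm.sign e : ℤ) : ℂ) *
        f (Function.extend p (fun i => c + 1 + ((e i : Fin r) : ℕ)) w)), Finset.sum_const,
      nsmul_eq_mul]
    intro x hx
    rw [hword _ _ _ hx, Equiv.Perm.decomposeFin.symm_sign, if_pos rfl, one_mul]
    congr 2
    have hg : (fun i => c + ((Equiv.swap 0 (0 : Fin (r + 1)) (e i).succ : Fin (r + 1)) : ℕ)) =
        fun i => c + 1 + ((e i : Fin r) : ℕ) := by
      funext i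
      rw [Equiv.swap_self, Equiv.refl_apply, Fin.val_succ]
      ring
    rw [hg]
    refine Function.update_eq_self_iff.2 ?_
    rw [extend_of_ne _ _ (Finset.mem_filter.1 (Finset.mem_filter.1 hx).1).2,
      (Finset.mem_filter.1 hx).2]
    simp
  have h1 : ∀ j : Fin r, ∑ e : Equiv.Perm (Fin r), ∑ x ∈ T,
      ((Equiv.Perm.sign (Equiv.Perm.decomposeFin.symm (j.succ, e)) : ℤ) : ℂ) *
      f (Function.extend (Fin.cons x p : Fin (r + 1) → P)
        (fun i => c + ((Equiv.Perm.decomposeFin.symm (j.succ, e) i : Fin (r + 1)) : ℕ)) w) =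
      ∑ e : Equiv.Perm (Fin r), ((Equiv.Perm.sign e : ℤ) : ℂ) *
        f (Function.extend p (fun i => c + 1 + ((e i : Fin r) : ℕ)) w) := by
    intro j
    refine Finset.sum_congr rfl fun e _ => ?_
    rw [Finset.sum_congr rfl (g := fun x => (-((Equiv.Perm.sign e : ℤ) : ℂ)) *
        f (Function.update (Function.extend p
        (fun i => c + ((Equiv.swap 0 j.succ (e i).succ : Fin (r + 1)) : ℕ)) w) x
          (c + (j.succ : ℕ)))), ← Finset.mul_sum, hT,
      sum_free hf hp hS _ w (m := c) (k := c + (j.succ : ℕ)) (by rw [Fin.val_succ]; omega),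
      neg_mul_neg, Finset.sum_eq_single (e.symm j)]
    · rw [if_pos]
      · congr 2
        funext y
        by_cases hy : ∃ i, p i = y
        · obtain ⟨i, rfl⟩ := hy
          rw [hp.extend_apply]
          by_cases hi : i = e.symm j
          · subst hi
            rw [Function.update_self, Equiv.apply_symm_apply, Fin.val_succ]
            ring
          · rw [Function.update_of_ne (fun h => hi (hp h)), hp.extend_apply,
              Equiv.swap_apply_of_ne_of_ne (Fin.succ_ne_zero _), Fin.val_succ]
            · ring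
            · intro h
              exact hi ((Equiv.eq_symm_apply e).2 (Fin.succ_injective _ h))
        · rw [Function.update_of_ne (fun h => hy ⟨_, h.symm⟩),
            Function.extend_apply' _ _ _ hy, Function.extend_apply' _ _ _ hy]
      · rw [Equiv.apply_symm_apply, Equiv.swap_apply_right, Fin.val_zero, add_zero]
    · intro i _ hi
      rw [if_neg]
      rw [Equiv.swap_apply_of_ne_of_ne (Fin.succ_ne_zero _)]
      · rw [Fin.val_succ]
        omega
      · intro h
        exact hi ((Equiv.eq_symm_apply e).2 (Fin.succ_injective _ h))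
    · intro h
      exact absurd (Finset.mem_univ _) h
    · intro x hx
      rw [hword _ _ _ hx, Equiv.Perm.decomposeFin.symm_sign, if_neg (Fin.succ_ne_zero j)]
      push_cast
      ring
  rw [h0, Finset.sum_congr rfl fun j _ => h1 j, Finset.sum_const, nsmul_eq_mul, ← add_mul,
    Finset.card_univ, Fintype.card_fin, hcard] at hmain
  rcases mul_eq_zero.1 hmain with h | h
  · have h2 : ((μ c + r : ℕ) : ℂ) = 0 := by
      push_cast
      exact h
    have h3 : μ c + r = 0 := by exact_mod_cast h2
    omega
  · exact hne h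

/-- [C1] -/
theorem cap1 : Cap1Stmt := by
  intro P _ _ S μ f hf ℓ hμ h w
  have key : ∀ r c : ℕ, r + c = ℓ → G S f r c := by
    intro r c
    induction c generalizing r with
    | zero =>
      intro hr p hp hS w
      obtain rfl : r = ℓ := by omega
      have h1 := h p hp hS w
      rw [c1] at h1
      simpa only [zero_add] using h1
    | succ c ih =>
      intro hr
      exact step hf (hμ c (by omega)) (ih (r + 1) (by omega))
  have h0 := key 0 ℓ (by omega) Fin.elim0 (fun i => i.elim0) (fun i => i.elim0) w
  rw [Fintype.sum_unique] at h0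
  have h1 : Function.extend (Fin.elim0 : Fin 0 → P)
      (fun i => ℓ + (((default : Equiv.Perm (Fin 0)) i : Fin 0) : ℕ)) w = w := by
    funext y
    exact Function.extend_apply' _ _ _ fun ⟨i, _⟩ => i.elim0
  rw [h1] at h0
  simpa using h0

end Vale.Agent.P181.WC.H353
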