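import Vale.Agent.P181.WC.Defs

/-!
# P181, line WC, [C2]: contraction with a full column (helper353)
-/

set_option autoImplicit false

open Finset

namespace Vale.Agent.P181.WC.H353

variable {P : Type} [Fintype P] [DecidableEq P]

omit [Fintype P] in
theorem sum_split {M : Type} [AddCommMonoid M] {S : Finset P} {r : ℕ} {p : Fin r → P}
    (hp : Function.Injective p) (hS : ∀ i, p i ∈ S) (F : P → M) :
    ∑ x ∈ S, F x = ∑ x ∈ S.filter (fun x => ∀ i, p i ≠ x), F x + ∑ i, F (p i) := by
  rw [← Finset.sum_filter_add_sum_filter_not S (fun x => ∀ i, p i ≠ x)]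
  congr 1
  have h : S.filter (fun x => ¬ ∀ i, p i ≠ x) = univ.image p := by
    ext x
    simp only [mem_filter, mem_image, mem_univ, true_and, not_forall, not_not]
    constructor
    · rintro ⟨_, i, hi⟩
      exact ⟨i, hi⟩
    · rintro ⟨i, hi⟩
      exact ⟨hi ▸ hS i, i, hi⟩
  rw [h, Finset.sum_image (fun i _ j _ hij => hp hij)]

omit [Fintype P] in
theorem extend_update {r : ℕ} {p : Fin r → P} (hp : Function.Injective p) (g : Fin r → ℕ)
    (w : P → ℕ) {x : P} (hx : ∀ i, p i ≠ x) (k : ℕ) :
    Function.extend p g (Function.update w x k) =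
      Function.update (Function.extend p g w) x k := by
  funext y
  by_cases hy : ∃ i, p i = y
  · obtain ⟨i, rfl⟩ := hy
    rw [hp.extend_apply, Function.update_of_ne (hx i), hp.extend_apply]
  · rw [Function.extend_apply' _ _ _ hy]
    by_cases h : y = x
    · subst h
      simp
    · rw [Function.update_of_ne h, Function.update_of_ne h, Function.extend_apply' _ _ _ hy]

omit [Fintype P] [DecidableEq P] in
theorem extend_of_ne {r : ℕ} {p : Fin r → P} (g : Fin r → ℕ) (w : P → ℕ) {x : P}
    (hx : ∀ i, p i ≠ x) : Function.extend p g w x = w x :=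
  Function.extend_apply' _ _ _ fun ⟨i, hi⟩ => hx i hi

omit [Fintype P] in
/-- The sum over the free positions with letter `m`. -/
theorem sum_free {S : Finset P} {μ : ℕ → ℕ} {f : (P → ℕ) → ℂ} (hf : HWw S μ f) {r : ℕ}
    {p : Fin r → P} (hp : Function.Injective p) (hS : ∀ i, p i ∈ S) (g : Fin r → ℕ) (w : P → ℕ)
    {m k : ℕ} (hmk : m < k) :
    ∑ x ∈ (S.filter (fun x => ∀ i, p i ≠ x)).filter (fun x => w x = m),
        f (Function.update (Function.extend p g w) x k) =
      -∑ i, if g i = m then f (Function.update (Function.extend p g w) (p i) k) else 0 := by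
  have h := hf.1 m k hmk (Function.extend p g w)
  rw [Finset.sum_filter, sum_split hp hS] at h
  rw [Finset.sum_filter, eq_neg_iff_add_eq_zero]
  refine Eq.trans ?_ h
  congr 1
  · refine Finset.sum_congr rfl fun x hx => ?_
    rw [extend_of_ne g w (Finset.mem_filter.1 hx).2]
  · refine Finset.sum_congr rfl fun i _ => ?_
    rw [hp.extend_apply]

omit [Fintype P] in
/-- The number of free positions with letter `m`. -/
theorem card_free {S : Finset P} {μ : ℕ → ℕ} {f : (P → ℕ) → ℂ} (hf : HWw S μ f) {r : ℕ}
    {p : Fin r → P} (hp : Function.Injective p) (hS : ∀ i, p i ∈ S) (g : Fin r → ℕ) (w : P → ℕ)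
    (h0 : f (Function.extend p g w) ≠ 0) (m : ℕ) :
    ((S.filter (fun x => ∀ i, p i ≠ x)).filter (fun x => w x = m)).card +
      (univ.filter (fun i => g i = m)).card = μ m := by
  rw [← hf.2 _ h0 m, Finset.card_filter, Finset.card_filter, Finset.card_filter,
    sum_split hp hS]
  congr 1
  · refine Finset.sum_congr rfl fun x hx => ?_
    rw [extend_of_ne g w (Finset.mem_filter.1 hx).2]
  · refine Finset.sum_congr rfl fun i _ => ?_
    rw [hp.extend_apply]

/-- [C2] -/
theorem contr : ContrStmt := by
  intro P _ _ S μ f hf ℓ hμ p hp hS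
  refine ⟨?_, ?_⟩
  · intro m k hmk w
    have e1 : ∀ x ∈ (S.filter (fun x => ∀ i, p i ≠ x)).filter (fun x => w x = m),
        c1 f ℓ p (Function.update w x k) = ∑ σ : Equiv.Perm (Fin ℓ),
          ((Equiv.Perm.sign σ : ℤ) : ℂ) *
            f (Function.update (Function.extend p (fun i => ((σ i : Fin ℓ) : ℕ)) w) x k) := by
      intro x hx
      refine Finset.sum_congr rfl fun σ _ => ?_
      rw [extend_update hp _ _ (Finset.mem_filter.1 (Finset.mem_filter.1 hx).1).2]
    rw [Finset.sum_congr rfl e1, Finset.sum_comm]
    have e2 : ∀ σ : Equiv.Perm (Fin ℓ),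
        ∑ x ∈ (S.filter (fun x => ∀ i, p i ≠ x)).filter (fun x => w x = m),
          ((Equiv.Perm.sign σ : ℤ) : ℂ) *
            f (Function.update (Function.extend p (fun i => ((σ i : Fin ℓ) : ℕ)) w) x k) =
        -(((Equiv.Perm.sign σ : ℤ) : ℂ) * ∑ i, if ((σ i : Fin ℓ) : ℕ) = m then
          f (Function.update (Function.extend p (fun i => ((σ i : Fin ℓ) : ℕ)) w) (p i) k)
          else 0) := by
      intro σ
      rw [← Finset.mul_sum, sum_free hf hp hS _ w hmk, mul_neg]
    rw [Finset.sum_congr rfl fun σ _ => e2 σ, Finset.sum_neg_distrib, neg_eq_zero]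
    by_cases hm : m < ℓ
    · have e3 : ∀ σ : Equiv.Perm (Fin ℓ), (∑ i, if ((σ i : Fin ℓ) : ℕ) = m then
          f (Function.update (Function.extend p (fun i => ((σ i : Fin ℓ) : ℕ)) w) (p i) k)
          else 0) = f (Function.update (Function.extend p (fun i => ((σ i : Fin ℓ) : ℕ)) w)
            (p (σ.symm ⟨m, hm⟩)) k) := by
        intro σ
        rw [Finset.sum_eq_single (σ.symm ⟨m, hm⟩)]
        · rw [if_pos (by rw [Equiv.apply_symm_apply])]
        · intro i _ hi
          rw [if_neg]
          intro h
          exact hi (by rw [Equiv.eq_symm_apply]; exact Fin.ext h)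
        · intro h
          exact absurd (Finset.mem_univ _) h
      rw [Finset.sum_congr rfl fun σ _ => by rw [e3 σ]]
      by_cases hk : k < ℓ
      · -- the involution
        have hne : (⟨m, hm⟩ : Fin ℓ) ≠ ⟨k, hk⟩ := fun h => hmk.ne (congrArg Fin.val h)
        refine Finset.sum_involution
          (fun σ _ => Equiv.swap (⟨m, hm⟩ : Fin ℓ) ⟨k, hk⟩ * σ) ?_ ?_ ?_ ?_
        · intro σ _
          have hw : Function.update (Function.extend p
              (fun i => (((Equiv.swap (⟨m, hm⟩ : Fin ℓ) ⟨k, hk⟩ * σ) i : Fin ℓ) : ℕ)) w)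
              (p ((Equiv.swap (⟨m, hm⟩ : Fin ℓ) ⟨k, hk⟩ * σ).symm ⟨m, hm⟩)) k =
              Function.update (Function.extend p (fun i => ((σ i : Fin ℓ) : ℕ)) w)
            (p (σ.symm ⟨m, hm⟩)) k := by
            have h1 : (Equiv.swap (⟨m, hm⟩ : Fin ℓ) ⟨k, hk⟩ * σ).symm ⟨m, hm⟩ =
                σ.symm ⟨k, hk⟩ := by
              rw [Equiv.symm_apply_eq, Equiv.Perm.mul_apply, Equiv.apply_symm_apply,
                Equiv.swap_apply_right]
            rw [h1]
            funext y
            by_cases hy : ∃ i, p i = y
            · obtain ⟨i, rfl⟩ := hy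
              by_cases hi1 : i = σ.symm ⟨k, hk⟩
              · subst hi1
                rw [Function.update_self, Function.update_of_ne, hp.extend_apply,
                  Equiv.apply_symm_apply]
                intro h
                exact hne (σ.symm.injective (hp h)).symm
              · rw [Function.update_of_ne (fun h => hi1 (hp h)), hp.extend_apply,
                  Equiv.Perm.mul_apply]
                by_cases hi2 : i = σ.symm ⟨m, hm⟩
                · subst hi2
                  rw [Function.update_self, Equiv.apply_symm_apply, Equiv.swap_apply_left]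
                · rw [Function.update_of_ne (fun h => hi2 (hp h)), hp.extend_apply,
                    Equiv.swap_apply_of_ne_of_ne]
                  · intro h
                    exact hi2 ((Equiv.eq_symm_apply σ).2 h)
                  · intro h
                    exact hi1 ((Equiv.eq_symm_apply σ).2 h)
            · rw [Function.update_of_ne (fun h => hy ⟨_, h.symm⟩),
                Function.update_of_ne (fun h => hy ⟨_, h.symm⟩),
                Function.extend_apply' _ _ _ hy, Function.extend_apply' _ _ _ hy]
          rw [hw, Equiv.Perm.sign_mul, Equiv.Perm.sign_swap hne]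
          push_cast
          ring
        · intro σ _ _ h
          have h2 : Equiv.swap (⟨m, hm⟩ : Fin ℓ) ⟨k, hk⟩ = 1 := by
            have := mul_right_cancel (h.trans (one_mul σ).symm)
            exact this
          have h3 := congrArg (fun τ : Equiv.Perm (Fin ℓ) => τ ⟨m, hm⟩) h2
          simp only [Equiv.swap_apply_left, Equiv.Perm.coe_one, id_eq] at h3
          exact hne h3.symm
        · intro σ _
          exact Finset.mem_univ _
        · intro σ _
          rw [← mul_assoc, Equiv.swap_mul_self, one_mul]
      · -- the content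
        refine Finset.sum_eq_zero fun σ _ => ?_
        have h0 : f (Function.update (Function.extend p (fun i => ((σ i : Fin ℓ) : ℕ)) w)
            (p (σ.symm ⟨m, hm⟩)) k) = 0 := by
          by_contra h
          have h1 := hf.2 _ h k
          rw [hμ k (not_lt.1 hk), Finset.card_eq_zero] at h1
          have h2 : p (σ.symm ⟨m, hm⟩) ∈ S.filter (fun x => Function.update
              (Function.extend p (fun i => ((σ i : Fin ℓ) : ℕ)) w) (p (σ.symm ⟨m, hm⟩)) k x =
                k) := Finset.mem_filter.2 ⟨hS _, Function.update_self _ _ _⟩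
          rw [h1] at h2
          exact absurd h2 (Finset.notMem_empty _)
        rw [h0, mul_zero]
    · refine Finset.sum_eq_zero fun σ _ => ?_
      rw [Finset.sum_eq_zero, mul_zero]
      intro i _
      rw [if_neg]
      intro h
      exact hm (h ▸ (σ i).2)
  · intro w hw m
    obtain ⟨σ, _, hσ⟩ := Finset.exists_ne_zero_of_sum_ne_zero hw
    have h0 : f (Function.extend p (fun i => ((σ i : Fin ℓ) : ℕ)) w) ≠ 0 :=
      right_ne_zero_of_mul hσ
    have h1 := card_free hf hp hS _ w h0 m
    have h2 : (univ.filter (fun i => ((σ i : Fin ℓ) : ℕ) = m)).card =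
        if m < ℓ then 1 else 0 := by
      split_ifs with hm
      · rw [Finset.card_eq_one]
        refine ⟨σ.symm ⟨m, hm⟩, ?_⟩
        ext i
        simp only [mem_filter, mem_univ, true_and, mem_singleton, Equiv.eq_symm_apply]
        exact ⟨fun h => Fin.ext h, fun h => congrArg Fin.val h⟩
      · rw [Finset.card_eq_zero, Finset.filter_eq_empty_iff]
        intro i _ h
        exact hm (h ▸ (σ i).2)
    rw [h2] at h1
    change _ = μ m - if m < ℓ then 1 else 0
    exact Nat.eq_sub_of_add_eq h1

end Vale.Agent.P181.WC.H353
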